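import Vale.Agent.P146.Crit.Main

/-!
# P146: the variance of the free energy diverges as the inverse temperature tends to one
-/

namespace Vale.Agent.Results.P146.NearCriticalDivergence

open MeasureTheory ProbabilityTheory Vale.Agent.P146

/-- For every `M` there is a neighbourhood of `β = 1` on which, for all large `n`, the variance of
the free energy is at least `M`. -/
theorem result : ∀ M : ℝ, ∃ δ : ℝ, 0 < δ ∧ ∃ N : ℕ, ∀ n : ℕ, N ≤ n → ∀ β : ℝ, |β - 1| ≤ δ →
    M ≤ variance (freeEnergy n β) (Measure.pi fun _ : Edge n => gaussianReal 0 1) :=
  Crit.variance_near_critical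

end Vale.Agent.Results.P146.NearCriticalDivergence
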