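import Vale.Agent.P146.Super.Main
import Vale.Agent.P146.Super.Params

/-!
# P146: superconcentration of the Sherrington–Kirkpatrick free energy with a power saving
-/

namespace Vale.Agent.Results.P146.PowerSuperconcentration

open MeasureTheory ProbabilityTheory Vale.Agent.P146

/-- For every `β ≥ 0` the variance of the free energy is `O(n ^ (1 - 1/300))`. -/
theorem result : ∀ β : ℝ, 0 ≤ β → ∃ C : ℝ, 0 < C ∧ ∀ n : ℕ, 2 ≤ n →
    variance (freeEnergy n β) (Measure.pi fun _ : Edge n => gaussianReal 0 1)
      ≤ C * (n : ℝ) ^ (1 - 1 / 300 : ℝ) :=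
  fun β hβ => Super.variance_power_bound hβ (Super.exists_setting β)

end Vale.Agent.Results.P146.PowerSuperconcentration
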