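import Vale.Agent.P146.Bound

/-!
# P146: fluctuations of order at least `β` at low temperature, uniformly in `n`
-/

namespace Vale.Agent.Results.P146.VarianceLinearBeta

open MeasureTheory ProbabilityTheory Vale.Agent.P146

/-- There is `c > 0` such that `Var F_n(β) ≥ c β ^ 2` for all `β ≥ 1` and `n ≥ 2`, and the ground
state value has variance at least `c`. -/
theorem result : ∃ c : ℝ, 0 < c ∧ ∀ n : ℕ, 2 ≤ n →
    (∀ β : ℝ, 1 ≤ β →
      c * β ^ 2 ≤ variance (freeEnergy n β) (Measure.pi fun _ : Edge n => gaussianReal 0 1)) ∧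
    c ≤ variance (maxEnergy n) (Measure.pi fun _ : Edge n => gaussianReal 0 1) := by
  refine ⟨(excess / 6) ^ 2, pow_pos (div_pos excess_pos (by norm_num)) 2, fun n hn =>
    ⟨fun β hβ => ?_, variance_maxEnergy hn⟩⟩
  refine le_trans (le_of_eq ?_) (variance_freeEnergy hn hβ)
  ring

end Vale.Agent.Results.P146.VarianceLinearBeta
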